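import Vale.Agent.P154.Pois.DE.Data.Sl1.All
import Vale.Agent.P154.Pois.DE.Data.Sl2.All
import Vale.Agent.P154.Pois.DE.Data.Sl3.All
import Vale.Agent.P154.Pois.DE.Data.Sl4.All
import Vale.Agent.P154.Full.Window

/-!
# The density evolution covers all mean degrees in `[4, 5]`
-/

noncomputable section

namespace Vale.P154.PD

open Data

/-- For `4 ≤ d ≤ 5` the mean chi-square magnetisation falls below `57 / 200`. -/
theorem below_window {d : ℝ} (h4 : 4 ≤ d) (h5 : d ≤ 5) : Full.BelowAt (57 / 200) d := by
  have hd : 0 < d := by linarith
  rcases le_total d (83 / 20) with h1 | h1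
  · exact Full.belowAt_of_radius (fun r a b c => Sl1.small a b c) hd (by norm_num)
      (le_trans (by norm_num) h4) h1
  rcases le_total d (22 / 5) with h2 | h2
  · exact Full.belowAt_of_radius (fun r a b c => Sl2.small a b c) hd (by norm_num)
      (le_trans (by norm_num) h1) h2
  rcases le_total d (117 / 25) with h3 | h3
  · exact Full.belowAt_of_radius (fun r a b c => Sl3.small a b c) hd (by norm_num)
      (le_trans (by norm_num) h2) h3
  · exact Full.belowAt_of_radius (fun r a b c => Sl4.small a b c) hd (by norm_num)
      (le_trans (by norm_num) h3) (by linarith)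

end Vale.P154.PD
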